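import Vale.Agent.P352.BW.T.S
import Vale.Agent.P352.BW.T.T1
import Vale.Agent.P352.BW.T.O
import Vale.Agent.P352.BW.T.M
import Vale.Agent.P352.BW.H234.ModU
import Vale.Agent.P352.BW.H649.Lw

/-!
# P352 BW (helper870): the PCT symmetry of the two-point functions of tensor fields
-/

set_option linter.all false

noncomputable section

open MeasureTheory Filter Topology
open scoped ComplexConjugate InnerProductSpace BoundedContinuousFunction

namespace Vale.Agent.P352.BW.H870

open Vale.Agent.P132 (ModData expB)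
open UniformSpace (Completion)
open GF H246 H496 H755 H15
open Vale.Agent.P352.BW

section abs

variable {H : Type*} [NormedAddCommGroup H] [InnerProductSpace ℂ H] [CompleteSpace H]
variable {M : VonNeumannAlgebra H} {ξ : H}

/-- the value at `-i/2` of the continuation of the modular unitaries -/
theorem jx (E : ModData M ξ) {x x' j : H} (h1 : H23.Ct (fun t z => E.U t z) x x')
    (hL : ∀ F G : ℝ →ᵇ ℂ, (∀ h : ℝ, F h = Real.exp (h / 2) * G h) → E.Th G j = E.Th F x) :
    j = x' := by
  obtain ⟨φ, C, φd, φc, φb, φv⟩ := h1.ex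
  rw [← sub_eq_zero]
  refine E.gd_zero fun κ hκ => ?_
  rw [map_sub, sub_eq_zero]
  refine ext_inner_left ℂ fun u => ?_
  obtain ⟨B, hB⟩ := H23.T_bd E κ hκ
  set u' : H := ContinuousLinearMap.adjoint (E.Th κ) u with hu'
  have hF1 : H234U.Bd fun z => ⟪u', φ z⟫_ℂ := by
    refine ⟨⟨φd u', ?_⟩, ‖u'‖ * C, fun z hz => ?_⟩
    · rw [H234U.closure_So]
      exact φc u'
    · exact (norm_inner_le_norm _ _).trans
        (mul_le_mul_of_nonneg_left (φb z hz.1 hz.2) (norm_nonneg _))
  have hd : Differentiable ℂ fun z => ⟪u, E.Th (ez κ hκ (Complex.I * z)) x⟫_ℂ :=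
    (innerSL ℂ u).differentiable.comp
      ((H23.T_diff E κ hκ).clm_apply (differentiable_const x))
  have hF2 : H234U.Bd fun z => ⟪u, E.Th (ez κ hκ (Complex.I * z)) x⟫_ℂ := by
    refine ⟨hd.diffContOnCl, ‖u‖ * (B * ‖x‖), fun z hz => ?_⟩
    refine (norm_inner_le_norm _ _).trans (mul_le_mul_of_nonneg_left ?_ (norm_nonneg _))
    exact ((E.Th _).le_opNorm _).trans
      (mul_le_mul_of_nonneg_right (hB z hz.1 (by linarith [hz.2])) (norm_nonneg _))
  have key := H234U.uniq hF1 hF2 (fun t => ?_) (H234U.low_mem 0)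
  · have e1 : φ (((0 : ℝ) : ℂ) - Complex.I / 2) = x' := by
      rw [(φv 0).2, E.U_zero]
      rfl
    have e2 := hL (ez κ hκ (Complex.I * (((0 : ℝ) : ℂ) - Complex.I / 2))) κ fun h => by
      rw [H23.ez_ap, Complex.ofReal_exp]
      congr 2
      push_cast
      linear_combination (-(h / 2 : ℂ)) * Complex.I_mul_I
    simp only [e1, ← e2] at key
    rw [← key, hu', ContinuousLinearMap.adjoint_inner_left]
  · have e1 : φ (t : ℂ) = E.U t x := (φv t).1
    simp only [e1]
    rw [hu', ContinuousLinearMap.adjoint_inner_left, ModData.U, ← E.gd_Th_mul,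
      E.gd_Th_congr (F := ez κ hκ (Complex.I * t)) (G := κ * expB t) fun h => ?_]
    rw [H23.ez_ap, BoundedContinuousFunction.mul_apply, Vale.Agent.P132.expB_apply, mul_comm]
    congr 2
    push_cast
    ring

end abs

end Vale.Agent.P352.BW.H870

end
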