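import Vale.Agent.P352.BW.T.T1
import Vale.Agent.P352.BW.L.Spec
import Vale.Agent.P352.H246.CfExt

/-!
# P352 BW (helper870): two-point functions and translations
-/

set_option linter.all false

noncomputable section

open MeasureTheory Filter Topology
open scoped ComplexConjugate InnerProductSpace BoundedContinuousFunction SchwartzMap

namespace Vale.Agent.P352.BW.H870

open UniformSpace (Completion)
open GF H246 H496 H755 H15
open Vale.Agent.P352.BW

/-- the translated function -/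
def tr (y : V) (f : Fn) : Fn := fun x => f (sim 1 GF.one y x)

lemma cs_tr {f : Fn} (hf : H755.CS f) (y : V) : H755.CS (tr y f) := H755.cs_transl hf y

lemma rf_rf (f : Fn) : L.rf (L.rf f) = f := by
  funext x
  simp [L.rf]

variable {D : Type*} [NormedAddCommGroup D] [InnerProductSpace ℂ D] {Q : Theory D}
  {A : (V → V) → D → D}

lemma op_single {k : ℕ} (Φ : (Fin k → Ix) → Fld D) (μ : Fin k → Ix) (f : Fn) (v : D) :
    T.op Φ (fun ν => if ν = μ then 1 else 0) f v = Φ μ f v := by
  unfold T.op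
  rw [Finset.sum_eq_single μ]
  · simp
  · intro ν _ h
    simp [h]
  · intro h
    exact absurd (Finset.mem_univ _) h

lemma fld_tr {B : Fld D} (hB : Q.fld B) (y : V) {f : Fn} (hf : GF.IsTest f) :
    B f Q.vac = Q.U 1 GF.one y (B (tr y f) Q.vac) := by
  have h := Q.transl B y f Q.vac hB hf
  rwa [Q.U_vac 1 GF.one y one_pos H496.isLor_one] at h

lemma inner_tr {B B' : Fld D} (hB : Q.fld B) (hB' : Q.fld B') (y : V) {f g : Fn}
    (hf : GF.IsTest f) (hg : GF.IsTest g) :
    inner ℂ (B f Q.vac) (B' g Q.vac) = inner ℂ (B (tr y f) Q.vac) (B' (tr y g) Q.vac) := by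
  conv_lhs => rw [fld_tr hB y hf, fld_tr hB' y hg, Q.U_inner 1 GF.one y _ _ one_pos
    H496.isLor_one]

lemma in_tr {W : Set V} {K : Set V} {y : V} (hK : ∀ x ∈ K, x - y ∈ W) {f : Fn}
    (hf : H755.CS f) (h : tsupport f ⊆ K) : In W (tr y f) := by
  refine ⟨(cs_tr hf y).1, (cs_tr hf y).2, ?_⟩
  have e : tr y f = f ∘ (Homeomorph.addRight y) := by
    funext x
    simp only [tr, H755.sim_one', Function.comp, Homeomorph.coe_addRight]
  rw [e, tsupport_comp_eq_preimage]
  intro x hx
  have h1 := hK (x + y) (h hx)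
  rwa [add_sub_cancel_right] at h1

/-- the two-point functions vanish if they vanish for the test functions with compact support -/
lemma zero_of_cs {B B' : Fld D} (hB : Q.fld B) (hB' : Q.fld B')
    (h : ∀ f g, H755.CS f → H755.CS g → inner ℂ (B f Q.vac) (B' g Q.vac) = (0 : ℂ)) {f g : Fn}
    (hf : GF.IsTest f) (hg : GF.IsTest g) : inner ℂ (B f Q.vac) (B' g Q.vac) = (0 : ℂ) := by
  obtain ⟨F, rfl⟩ := exists_fl hf
  obtain ⟨G, rfl⟩ := exists_fl hg
  refine H246D.ext_cs (u := fun F => inner ℂ (B (fl F) Q.vac) (B' (fl G) Q.vac))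
    (v := fun _ => (0 : ℂ)) ((fld_cont hB Q.vac).inner continuous_const) continuous_const
    (fun F hF => ?_) F
  refine H246D.ext_cs (u := fun G => inner ℂ (B (fl F) Q.vac) (B' (fl G) Q.vac))
    (v := fun _ => (0 : ℂ)) (continuous_const.inner (fld_cont hB' Q.vac)) continuous_const
    (fun G hG => ?_) G
  exact h _ _ (H246D.cs_fl hF) (H246D.cs_fl hG)

/-- compact sets are translated into the backward cone -/
lemma big_bk {K : Set V} (hK : IsCompact K) : ∃ y : V, ∀ x ∈ K, x - y ∈ L.Bk := by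
  obtain ⟨R, hR⟩ := hK.isBounded.subset_closedBall 0
  set r : ℝ := |R| with hr
  have hr0 : 0 ≤ r := abs_nonneg R
  refine ⟨bas o (3 * r + 1), fun x hx => ?_⟩
  have h1 : ∀ m, |x m| ≤ r := by
    intro m
    have h2 := hR hx
    rw [mem_closedBall_zero_iff] at h2
    have h3 := norm_le_pi_norm x m
    rw [Real.norm_eq_abs] at h3
    exact (h3.trans h2).trans (le_abs_self R)
  have h0 := abs_le.1 (h1 0)
  have s1 := sq_le_sq' (abs_le.1 (h1 1)).1 (abs_le.1 (h1 1)).2
  have s2 := sq_le_sq' (abs_le.1 (h1 2)).1 (abs_le.1 (h1 2)).2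
  have s3 := sq_le_sq' (abs_le.1 (h1 3)).1 (abs_le.1 (h1 3)).2
  refine ⟨?_, ?_⟩
  · simp [GF.mdot, eta, bas, o, Fin.sum_univ_four]
    nlinarith [h0.1, h0.2]
  · simp [bas, o]
    linarith [h0.2]

lemma in_rf {f : Fn} (hf : In L.Bk f) : In Fc (L.rf f) := by
  have hs : ∀ x : V, sim 1 (fun m => bas m (-1)) 0 x = -x := by
    intro x
    funext n
    simp [sim, bas]
  have h1 : ∀ x : V, sim 1 (fun m => bas m (-1)) 0 (sim 1 (fun m => bas m (-1)) 0 x) = x :=
    fun x => by rw [hs, hs, neg_neg]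
  have e : L.rf f = T.cp (fun m => bas m (-1)) f := by
    funext x
    simp only [T.cp, L.rf, hs]
  rw [e]
  refine T.in_cp h1 h1 (fun x hx => ?_) hf
  rw [hs] at hx
  obtain ⟨h2, h3⟩ := hx
  refine ⟨?_, ?_⟩
  · simp only [GF.mdot, Pi.neg_apply, mul_neg, neg_mul, neg_neg] at h2 ⊢
    exact h2
  · simpa using h3

end Vale.Agent.P352.BW.H870

end
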