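import Vale.Agent.P352.BW.H49.Pct
import Vale.Agent.P352.BW.H49.OrDefs
import Vale.Agent.P352.BW.H870.Jx
import Vale.Agent.P352.BW.H870.Tr
import Vale.Agent.P352.BW.H209.Lc
import Vale.Agent.P352.BW.L.O

/-!
# P352 BW (helper870): the theorem of Bisognano and Wichmann for the light cone implies that
tensor fields with different phases of the dimension are orthogonal
-/

set_option linter.all false

noncomputable section

open MeasureTheory Filter Topology
open scoped ComplexConjugate InnerProductSpace BoundedContinuousFunction SchwartzMap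

namespace Vale.Agent.P352.BW.H870

open Vale.Agent.P132 (ModData expB)
open UniformSpace (Completion)
open GF H246 H496 H755 H15
open Vale.Agent.P352.BW

variable {D : Type*} [NormedAddCommGroup D] [InnerProductSpace ℂ D] {Q : Theory D}
  {A : (V → V) → D → D} {𝒜 : Set V → VonNeumannAlgebra (Completion D)}

lemma ten_td {k : ℕ} {d : ℝ} {Φ : (Fin k → Ix) → Fld D} (h : IsTd Q k d Φ) : T.Ten Q k Φ := by
  refine ⟨h.1, fun μ L f v hL hf => ?_⟩
  have := h.2 μ 1 L f v one_pos hL hf
  simpa only [Real.one_rpow, one_mul] using this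

/-- the components of tensor fields are fields with dimension `d` -/
lemma fz_td {k : ℕ} {d : ℝ} {Φ : (Fin k → Ix) → Fld D} (h : IsTd Q k d Φ)
    (μ : Fin k → Ix) : L.Fz Q d (Φ μ) := by
  refine ⟨h.1 μ, fun s f v hs hf => ?_⟩
  rw [h.2 μ s GF.one f v hs H496.isLor_one hf, Finset.sum_eq_single μ]
  · have : ∀ i, GF.one (μ i) (μ i) = 1 := fun i => by simp [GF.one, bas]
    simp [this]
  · intro ν _ hν
    obtain ⟨i, hi⟩ : ∃ i, μ i ≠ ν i := by
      by_contra hc
      push Not at hc
      exact hν (funext hc).symm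
    have : ∏ i, GF.one (ν i) (μ i) = 0 :=
      Finset.prod_eq_zero (Finset.mem_univ i) (by simp [GF.one, bas, hi])
    rw [this]
    simp
  · intro h
    exact absurd (Finset.mem_univ _) h

/-- `Δ^{1/2} X Ω = J X* Ω` for the light cone, one-field vectors -/
theorem jc (N : LNm Q A 𝒜) {J : Completion D → Completion D}
    (hJ : IsMod (𝒜 Fc) (om Q) (fun t z => Ue Q (Real.exp (-(2 * Real.pi * t))) GF.one 0 z) J)
    (E : ModData (𝒜 Fc) (om Q)) {d : ℝ} {B B' : Fld D} (hB : L.Fz Q d B)
    (hadj : ∀ f v w, GF.IsTest f → inner ℂ (B f v) w = inner ℂ v (B' (GF.bar f) w))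
    {f : Fn} (hf : In Fc f) :
    E.J ((B' (GF.bar f) Q.vac : D) : Completion D) =
      ((Complex.exp (Complex.I * Real.pi * d) • B (L.rf f) Q.vac : D) : Completion D) := by
  have hU : UStmt Q A := ublock N.toRep
  obtain ⟨G, g1, g2, g3, g4⟩ := (L.o N.toRep d B f hB).1 hf
  have hE : ∀ s z, Ue Q (Real.exp (-(2 * Real.pi * s))) GF.one 0 z = E.U s z :=
    fun s z => isMod_unique E hJ s z
  refine jx E (x := ((B f Q.vac : D) : Completion D)) (T.ct_of g1 g2 g3 fun t => ?_) ?_
  · rw [← hE, ← hE, hU.coe _ _ 0 _ (Real.exp_pos _) H496.isLor_one,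
      hU.coe _ _ 0 _ (Real.exp_pos _) H496.isLor_one]
    exact g4 t
  · exact (T.m (𝒜 Fc) Q.vac E (B f) (B' (GF.bar f))).1
      (T.afs_of (fun v w => hadj f v w hf.1) (N.fld Fc B f hB.fld hf))

lemma adj_comp {k : ℕ} {Φ Ψ : (Fin k → Ix) → Fld D} (h : H49.Adj Φ Ψ) (μ : Fin k → Ix) (f : Fn)
    (v w : D) (hf : GF.IsTest f) : inner ℂ (Φ μ f v) w = inner ℂ v (Ψ μ (GF.bar f) w) := by
  have hc : (fun ρ : Fin k → Ix => conj (if ρ = μ then (1 : ℂ) else 0)) =
      fun ρ => if ρ = μ then 1 else 0 := by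
    funext ρ
    split_ifs <;> simp
  have h1 := h (fun ρ => if ρ = μ then 1 else 0) f v w hf
  rw [hc, op_single, op_single] at h1
  exact h1

/-- **Orthogonality of tensor fields with different phases**: if the dilations are the modular
unitaries of the light cone, then tensor fields `Φ` (rank `k`, dimension `d`) and `Φ'` (rank `k'`,
dimension `d'`) are orthogonal in the vacuum unless `d - k - (d' - k')` is an even integer. -/
theorem orth (N : LNm Q A 𝒜) {J : Completion D → Completion D}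
    (hJ : IsMod (𝒜 Fc) (om Q) (fun t z => Ue Q (Real.exp (-(2 * Real.pi * t))) GF.one 0 z) J) :
    Orth Q := by
  intro k d Φ μ f k' d' Φ' ν g hΦ hΦ' hf hg hne
  have h1 := (fz_td hΦ μ)
  have h2 := (fz_td hΦ' ν)
  refine zero_of_cs h1.fld h2.fld (fun f g hf hg => ?_) hf hg
  obtain ⟨y, hy⟩ := big_bk (hf.2.isCompact.union hg.2.isCompact)
  have hf1 : In Fc (L.rf (tr y f)) := in_rf (in_tr hy hf Set.subset_union_left)
  have hg1 : In Fc (L.rf (tr y g)) := in_rf (in_tr hy hg Set.subset_union_right)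
  rw [inner_tr h1.fld h2.fld y hf.1 hg.1]
  obtain ⟨Ψ, hΨ, hadj⟩ := T.adj_of N.toRep (ten_td hΦ)
  obtain ⟨Ψ', hΨ', hadj'⟩ := T.adj_of N.toRep (ten_td hΦ')
  have hc : ∀ {j : ℕ} (μ : Fin j → Ix), (fun ρ : Fin j → Ix => conj (if ρ = μ then (1 : ℂ) else 0))
      = fun ρ => if ρ = μ then 1 else 0 := by
    intro j μ
    funext ρ
    split_ifs <;> simp
  have h3 := H49.pct N (ten_td hΦ) hΨ hadj (fun ρ => if ρ = μ then 1 else 0) hf1.1 hf1.2.1
    (ten_td hΦ') hΨ' hadj' (fun ρ => if ρ = ν then 1 else 0) hg1.1 hg1.2.1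
  rw [hc, hc, op_single, op_single, op_single, op_single, rf_rf, rf_rf] at h3
  obtain ⟨E⟩ := H209.modF N hJ
  have h4 := E.inner_J_J ((Ψ μ (GF.bar (L.rf (tr y f))) Q.vac : D) : Completion D)
    ((Ψ' ν (GF.bar (L.rf (tr y g))) Q.vac : D) : Completion D)
  rw [jc N hJ E h1 (fun f v w => adj_comp hadj μ f v w) hf1,
    jc N hJ E h2 (fun f v w => adj_comp hadj' ν f v w) hg1, Completion.inner_coe,
    Completion.inner_coe, inner_smul_left, inner_smul_right, rf_rf, rf_rf] at h4
  rw [← h4] at h3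
  set X : ℂ := inner ℂ (Φ μ (tr y f) Q.vac) (Φ' ν (tr y g) Q.vac) with hX
  by_contra hX0
  have e1 : ∀ (d : ℝ) (k : ℕ), Complex.exp (Complex.I * Real.pi * (d - k)) =
      Complex.exp (Complex.I * Real.pi * d) * (-1) ^ k := by
    intro d k
    have e2 : Complex.I * Real.pi * (d - k) = Complex.I * Real.pi * d +
        (k : ℂ) * (-(Real.pi * Complex.I)) := by ring
    rw [e2, Complex.exp_add, Complex.exp_nat_mul, Complex.exp_neg, Complex.exp_pi_mul_I]
    norm_num
  have e3 : conj (Complex.exp (Complex.I * Real.pi * d)) *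
      Complex.exp (Complex.I * Real.pi * d) = 1 := by
    rw [mul_comm, Complex.mul_conj, Complex.normSq_eq_norm_sq, Complex.norm_exp]
    simp
  have e4 : conj (Complex.exp (Complex.I * Real.pi * d)) *
      Complex.exp (Complex.I * Real.pi * d') = (-1 : ℂ) ^ (k + k') := by
    apply mul_right_cancel₀ hX0
    rw [h3]
    ring
  have e5 : (-1 : ℂ) ^ (k + k') * (-1) ^ k' = (-1) ^ k := by
    rw [pow_add, mul_assoc, ← mul_pow]
    norm_num
  have e6 : Complex.exp (Complex.I * Real.pi * (d - k)) =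
      Complex.exp (Complex.I * Real.pi * (d' - k')) := by
    rw [e1, e1]
    linear_combination (-Complex.exp (Complex.I * Real.pi * d)) * e5 +
      (Complex.exp (Complex.I * Real.pi * d') * (-1) ^ k') * e3 -
      (Complex.exp (Complex.I * Real.pi * d) * (-1) ^ k') * e4
  obtain ⟨n, hn⟩ := Complex.exp_eq_exp_iff_exists_int.1 e6
  apply hne n
  have hpi : (Complex.I * Real.pi : ℂ) ≠ 0 :=
    mul_ne_zero Complex.I_ne_zero (by exact_mod_cast Real.pi_ne_zero)
  have e7 : ((d : ℂ) - k - (d' - k')) = 2 * n := by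
    apply mul_left_cancel₀ hpi
    linear_combination hn
  exact_mod_cast e7

end Vale.Agent.P352.BW.H870

end
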