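import Vale.Agent.P352.BW.H49.Or
import Vale.Agent.P352.BW.H870.Oc

/-!
# P352 BW (helper870): the theorem of Bisognano and Wichmann for the light cone is equivalent to
the orthogonality of the tensor fields with different phases
-/

set_option linter.all false

noncomputable section

open UniformSpace (Completion)

namespace Vale.Agent.P352.BW.H870

open GF
open Vale.Agent.P352.BW

variable {D : Type*} [NormedAddCommGroup D] [InnerProductSpace ℂ D] {Q : Theory D}
  {A : (V → V) → D → D} {𝒜 : Set V → VonNeumannAlgebra (Completion D)}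

/-- the vacuum is separating for the light cone if the dilations are its modular unitaries -/
theorem sep_of_lc (N : LNm Q A 𝒜) {J : Completion D → Completion D}
    (hJ : IsMod (𝒜 Fc) (om Q) (fun t z => Ue Q (Real.exp (-(2 * Real.pi * t))) GF.one 0 z) J) :
    ∀ X ∈ 𝒜 Fc, X (om Q) = 0 → X = 0 := by
  obtain ⟨E⟩ := H209.modF N hJ
  have hc : Dense {z | ∃ X ∈ 𝒜 Fc, X (om Q) = z} := by
    refine N.cyc Lc.isOpen_fc ⟨bas o 1, ?_, ?_⟩
    · simp [GF.mdot, bas, eta, o, Fin.sum_univ_four]
    · simp [bas, o]
  exact H209.sep_of_isMod hJ hc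

/-- **Light cones and orthogonality**: if the one-field vectors are total, then the dilations are
the modular unitaries of the algebra of the forward light cone and the vacuum if and only if the
vacuum is separating for this algebra and the tensor fields whose `d - k` do not differ by even
integers are orthogonal in the vacuum. -/
theorem lc_iff (N : LNm Q A 𝒜) (hT : Tot Q) :
    (∃ J : Completion D → Completion D, IsMod (𝒜 Fc) (om Q)
      (fun t z => Ue Q (Real.exp (-(2 * Real.pi * t))) GF.one 0 z) J) ↔
    (∀ X ∈ 𝒜 Fc, X (om Q) = 0 → X = 0) ∧ Orth Q := by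
  constructor
  · rintro ⟨J, hJ⟩
    exact ⟨sep_of_lc N hJ, orth N hJ⟩
  · rintro ⟨hs, hR⟩
    exact H49.lc N hs hT hR

end Vale.Agent.P352.BW.H870

end
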