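import Vale.Agent.P352.BW.H870.Oc

/-!
# P352 BW (helper870): the conformal relations of the null deformations and the similitudes imply
that tensor fields with different phases of the dimension are orthogonal
-/

set_option linter.all false

noncomputable section

open MeasureTheory Filter Topology
open scoped ComplexConjugate InnerProductSpace BoundedContinuousFunction SchwartzMap

namespace Vale.Agent.P352.BW.H870

open Vale.Agent.P132 (ModData expB)
open UniformSpace (Completion)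
open GF H246 H496 H755 H15
open Vale.Agent.P352.BW

section abs

variable {H : Type*} [NormedAddCommGroup H] [InnerProductSpace ℂ H] [CompleteSpace H]

/-- the value at `-i/2` of the continuation of the modular unitaries -/
theorem thx {M : VonNeumannAlgebra H} {ξ : H} (E : ModData M ξ) {x x' : H}
    (h1 : H23.Ct (fun t z => E.U t z) x x') (κ : ℝ →ᵇ ℂ) (hκ : HasCompactSupport κ) :
    E.Th κ x' = E.Th (ez κ hκ (1 / 2)) x := by
  obtain ⟨φ, C, φd, φc, φb, φv⟩ := h1.ex
  refine ext_inner_left ℂ fun u => ?_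
  obtain ⟨B, hB⟩ := H23.T_bd E κ hκ
  set u' : H := ContinuousLinearMap.adjoint (E.Th κ) u with hu'
  have hF1 : H234U.Bd fun z => ⟪u', φ z⟫_ℂ := by
    refine ⟨⟨φd u', ?_⟩, ‖u'‖ * C, fun z hz => ?_⟩
    · rw [H234U.closure_So]
      exact φc u'
    · exact (norm_inner_le_norm _ _).trans
        (mul_le_mul_of_nonneg_left (φb z hz.1 hz.2) (norm_nonneg _))
  have hd : Differentiable ℂ fun z => ⟪u, E.Th (ez κ hκ (Complex.I * z)) x⟫_ℂ :=
    (innerSL ℂ u).differentiable.comp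
      ((H23.T_diff E κ hκ).clm_apply (differentiable_const x))
  have hF2 : H234U.Bd fun z => ⟪u, E.Th (ez κ hκ (Complex.I * z)) x⟫_ℂ := by
    refine ⟨hd.diffContOnCl, ‖u‖ * (B * ‖x‖), fun z hz => ?_⟩
    refine (norm_inner_le_norm _ _).trans (mul_le_mul_of_nonneg_left ?_ (norm_nonneg _))
    exact ((E.Th _).le_opNorm _).trans
      (mul_le_mul_of_nonneg_right (hB z hz.1 (by linarith [hz.2])) (norm_nonneg _))
  have key := H234U.uniq hF1 hF2 (fun t => ?_) (H234U.low_mem 0)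
  · have e1 : φ (((0 : ℝ) : ℂ) - Complex.I / 2) = x' := by
      rw [(φv 0).2, E.U_zero]
      rfl
    have e2 : Complex.I * (((0 : ℝ) : ℂ) - Complex.I / 2) = 1 / 2 := by
      push_cast
      linear_combination (-(1 / 2 : ℂ)) * Complex.I_mul_I
    simp only [e1, e2] at key
    rw [← key, hu', ContinuousLinearMap.adjoint_inner_left]
  · have e1 : φ (t : ℂ) = E.U t x := (φv t).1
    simp only [e1]
    rw [hu', ContinuousLinearMap.adjoint_inner_left, ModData.U, ← E.gd_Th_mul,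
      E.gd_Th_congr (F := ez κ hκ (Complex.I * t)) (G := κ * expB t) fun h => ?_]
    rw [H23.ez_ap, BoundedContinuousFunction.mul_apply, Vale.Agent.P132.expB_apply, mul_comm]
    congr 2
    push_cast
    ring

variable {M : ℕ → VonNeumannAlgebra H} {ξ : H}

/-- the limit of `J x*` for modular groups which are conjugates of one of them -/
theorem tends_j (E : ∀ n, ModData (M n) ξ) (W : ℕ → H ≃ₗᵢ[ℂ] H) (W' : H ≃ₗᵢ[ℂ] H)
    (hW : ∀ n s z, W n ((E 0).U s z) = (E n).U s (W n z))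
    (hlim : ∀ z, Tendsto (fun n => (W n).symm z) atTop (𝓝 (W'.symm z))) {x xs k : H}
    (hm : ∀ n, ∀ F G : ℝ →ᵇ ℂ, (∀ h : ℝ, F h = Real.exp (h / 2) * G h) →
      (E n).Th G ((E n).J xs) = (E n).Th F x)
    (hk : ∀ (κ : ℝ →ᵇ ℂ) (hκ : HasCompactSupport κ),
      (E 0).Th κ (W'.symm k) = (E 0).Th (ez κ hκ (1 / 2)) (W'.symm x))
    (hn : ‖k‖ = ‖xs‖) :
    Tendsto (fun n => (W n).symm ((E n).J xs)) atTop (𝓝 (W'.symm k)) := by
  have hjn : ∀ n, ‖(W n).symm ((E n).J xs)‖ = ‖k‖ := fun n => by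
    rw [LinearIsometryEquiv.norm_map, (E n).norm_J, hn]
  have hTh : ∀ n F z, (E 0).Th F ((W n).symm z) = (W n).symm ((E n).Th F z) := by
    intro n F z
    apply (W n).injective
    rw [T.nat_Th (E 0) (E n) (W n) (hW n), LinearIsometryEquiv.apply_symm_apply,
      LinearIsometryEquiv.apply_symm_apply]
  have h1 : ∀ (κ : ℝ →ᵇ ℂ) (hκ : HasCompactSupport κ),
      Tendsto (fun n => (E 0).Th κ ((W n).symm ((E n).J xs))) atTop
        (𝓝 ((E 0).Th κ (W'.symm k))) := by
    intro κ hκ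
    have h2 : ∀ n, (E 0).Th κ ((W n).symm ((E n).J xs)) =
        (E 0).Th (ez κ hκ (1 / 2)) ((W n).symm x) := by
      intro n
      rw [hTh, hm n (ez κ hκ (1 / 2)) κ (fun h => ?_), ← hTh]
      rw [H23.ez_ap, Complex.ofReal_exp]
      congr 2
      push_cast
      ring
    rw [hk κ hκ]
    simp only [h2]
    exact (((E 0).Th (ez κ hκ (1 / 2))).continuous.tendsto _).comp (hlim x)
  have hk' : ‖W'.symm k‖ = ‖k‖ := LinearIsometryEquiv.norm_map _ _
  have h3 : Tendsto (fun n => inner ℂ (W'.symm k) ((W n).symm ((E n).J xs))) atTop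
      (𝓝 (inner ℂ (W'.symm k) (W'.symm k))) := by
    rw [Metric.tendsto_nhds]
    intro ε hε
    set δ : ℝ := ε / (4 * (‖k‖ + 1)) with hδ
    have hk0 := norm_nonneg k
    have hδ0 : 0 < δ := by positivity
    obtain ⟨_, ⟨χ, hχ, y0, rfl⟩, hy⟩ := Metric.mem_closure_iff.1 (H49.denseY (E 0) (W'.symm k)) δ hδ0
    have hχ' : HasCompactSupport (star χ : ℝ →ᵇ ℂ) :=
      hχ.comp_left (g := fun z => conj z) (map_zero _)
    have h4 : Tendsto (fun n => inner ℂ ((E 0).Th χ y0) ((W n).symm ((E n).J xs))) atTop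
        (𝓝 (inner ℂ ((E 0).Th χ y0) (W'.symm k))) := by
      simp only [H48.Th_adj]
      exact ((continuous_const.inner continuous_id).tendsto _).comp (h1 (star χ) hχ')
    filter_upwards [(Metric.tendsto_nhds.1 h4) (ε / 2) (by positivity)] with n hn'
    rw [dist_eq_norm] at hn' hy ⊢
    set y := (E 0).Th χ y0 with hydef
    set j := (W n).symm ((E n).J xs) with hjdef
    have e1 : (inner ℂ (W'.symm k) j - inner ℂ (W'.symm k) (W'.symm k) : ℂ) =
        (inner ℂ y j - inner ℂ y (W'.symm k)) + inner ℂ (W'.symm k - y) (j - W'.symm k) := by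
      rw [inner_sub_left, inner_sub_right, inner_sub_right]
      ring
    have e2 : ‖(inner ℂ (W'.symm k - y) (j - W'.symm k) : ℂ)‖ ≤ δ * (2 * ‖k‖) := by
      refine (norm_inner_le_norm _ _).trans ?_
      refine mul_le_mul hy.le ?_ (norm_nonneg _) hδ0.le
      refine (norm_sub_le _ _).trans ?_
      rw [hjdef, hjn, hk']
      linarith
    have e3 : δ * (2 * ‖k‖) < ε / 2 := by
      rw [hδ, div_mul_eq_mul_div, div_lt_div_iff₀ (by positivity) (by norm_num)]
      nlinarith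
    rw [e1]
    calc ‖(inner ℂ y j - inner ℂ y (W'.symm k) : ℂ) + inner ℂ (W'.symm k - y) (j - W'.symm k)‖
        ≤ ‖(inner ℂ y j - inner ℂ y (W'.symm k) : ℂ)‖ +
          ‖(inner ℂ (W'.symm k - y) (j - W'.symm k) : ℂ)‖ := norm_add_le _ _
      _ < ε := by linarith
  have h5 : Tendsto (fun n => ‖(W n).symm ((E n).J xs) - W'.symm k‖ ^ 2) atTop (𝓝 0) := by
    have e : ∀ n, ‖(W n).symm ((E n).J xs) - W'.symm k‖ ^ 2 =
        2 * ‖k‖ ^ 2 - 2 * (inner ℂ (W'.symm k) ((W n).symm ((E n).J xs)) : ℂ).re := by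
      intro n
      rw [@norm_sub_sq ℂ, hjn, hk', ← inner_conj_symm, RCLike.conj_re]
      show ‖k‖ ^ 2 - 2 * (inner ℂ (W'.symm k) ((W n).symm ((E n).J xs)) : ℂ).re + ‖k‖ ^ 2 = _
      ring
    simp only [e]
    have h6 := ((Complex.continuous_re.tendsto _).comp h3).const_mul 2
    have h7 : (inner ℂ (W'.symm k) (W'.symm k) : ℂ).re = ‖k‖ ^ 2 := by
      rw [← hk']
      exact (@norm_sq_eq_re_inner ℂ _ _ _ _ _).symm
    rw [h7] at h6
    have h9 := h6.const_sub (2 * ‖k‖ ^ 2)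
    rw [sub_self] at h9
    exact h9
  rw [tendsto_iff_norm_sub_tendsto_zero]
  have h8 := (Real.continuous_sqrt.tendsto 0).comp h5
  rw [Real.sqrt_zero] at h8
  refine h8.congr fun n => ?_
  exact Real.sqrt_sq (norm_nonneg _)

/-- the Gram matrix of the limits -/
theorem gram (E : ∀ n, ModData (M n) ξ) (W : ℕ → H ≃ₗᵢ[ℂ] H) (W' : H ≃ₗᵢ[ℂ] H)
    (hW : ∀ n s z, W n ((E 0).U s z) = (E n).U s (W n z))
    (hlim : ∀ z, Tendsto (fun n => (W n).symm z) atTop (𝓝 (W'.symm z))) {x xs k x1 xs1 k1 : H}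
    (hm : ∀ n, ∀ F G : ℝ →ᵇ ℂ, (∀ h : ℝ, F h = Real.exp (h / 2) * G h) →
      (E n).Th G ((E n).J xs) = (E n).Th F x)
    (hk : ∀ (κ : ℝ →ᵇ ℂ) (hκ : HasCompactSupport κ),
      (E 0).Th κ (W'.symm k) = (E 0).Th (ez κ hκ (1 / 2)) (W'.symm x))
    (hn : ‖k‖ = ‖xs‖)
    (hm1 : ∀ n, ∀ F G : ℝ →ᵇ ℂ, (∀ h : ℝ, F h = Real.exp (h / 2) * G h) →
      (E n).Th G ((E n).J xs1) = (E n).Th F x1)
    (hk1 : ∀ (κ : ℝ →ᵇ ℂ) (hκ : HasCompactSupport κ),
      (E 0).Th κ (W'.symm k1) = (E 0).Th (ez κ hκ (1 / 2)) (W'.symm x1))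
    (hn1 : ‖k1‖ = ‖xs1‖) : inner ℂ k k1 = inner ℂ xs1 xs := by
  have h1 := (tends_j E W W' hW hlim hm hk hn).inner (𝕜 := ℂ)
    (tends_j E W W' hW hlim hm1 hk1 hn1)
  rw [LinearIsometryEquiv.inner_map_map] at h1
  simp only [LinearIsometryEquiv.inner_map_map, ModData.inner_J_J] at h1
  exact tendsto_nhds_unique h1 tendsto_const_nhds |>.symm ▸ rfl

end abs

variable {D : Type*} [NormedAddCommGroup D] [InnerProductSpace ℂ D] {Q : Theory D}
  {A : (V → V) → D → D} {𝒜 : Set V → VonNeumannAlgebra (Completion D)}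
  {S : V → ℝ → Completion D →L[ℂ] Completion D}

/-- the law of the null deformations and the translations, for one pair of null vectors -/
def LawAt (Q : Theory D) (S : V → ℝ → Completion D →L[ℂ] Completion D) (a b : V) : Prop :=
  ∀ (t c : ℝ) (L : Ix → V) (z : Completion D), 0 < 1 + 2 * c * t →
    (∀ x, sim 1 L 0 x = x + (((1 + 2 * c * t)⁻¹ - 1) * GF.mdot b x) • a +
      (2 * c * t * GF.mdot a x) • b) →
    Ue Q 1 GF.one (-(t • b)) (S a c z) =
      S a (c / (1 + 2 * c * t)) (Ue Q (1 + 2 * c * t) L (-(t * (1 + 2 * c * t)) • b) z)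

lemma S_add (h : Grp0 Q 𝒜 S) {a : V} (ha : IsNull a) (c c' : ℝ) (z : Completion D) :
    S a c (S a c' z) = S a (c + c') z := by
  rw [h.add a c c' ha]
  rfl

/-- the null deformations as unitary operators -/
def sW (h : Grp0 Q 𝒜 S) {a : V} (ha : IsNull a) (c : ℝ) : Completion D ≃ₗᵢ[ℂ] Completion D :=
  H234U.mkW (fun z => S a c z) (fun z => S a (-c) z) (fun z w => h.inn a c z w ha)
    (fun z => by
      show S a c (S a (-c) z) = z
      rw [S_add h ha, add_neg_cancel, h.zero a ha]; rfl)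
    (fun z => by
      show S a (-c) (S a c z) = z
      rw [S_add h ha, neg_add_cancel, h.zero a ha]; rfl)

lemma sW_apply (h : Grp0 Q 𝒜 S) {a : V} (ha : IsNull a) (c : ℝ) (z : Completion D) :
    sW h ha c z = S a c z := rfl

lemma sW_symm (h : Grp0 Q 𝒜 S) {a : V} (ha : IsNull a) (c : ℝ) (z : Completion D) :
    (sW h ha c).symm z = S a (-c) z := rfl

/-- the dilations and the null deformations -/
lemma dil_S (h : Grp0 Q 𝒜 S) {a : V} (ha : IsNull a) (s c : ℝ) (z : Completion D) :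
    Ue Q (Real.exp (-(2 * Real.pi * s))) GF.one 0 (S a c z) =
      S a (Real.exp (2 * Real.pi * s) * c) (Ue Q (Real.exp (-(2 * Real.pi * s))) GF.one 0 z) := by
  have h1 := h.cov (Real.exp (-(2 * Real.pi * s))) GF.one 1 a a c z (Real.exp_pos _) one_pos
    H496.isLor_one ha ha (by rw [H755.sim_one', add_zero, one_smul])
  rw [h1]
  congr 2
  rw [Real.exp_neg]
  field_simp

/-- **The modular unitaries of the cut light cones are conjugates of the dilations** -/
theorem modC_law (N : LNm Q A 𝒜) (h : Grp0 Q 𝒜 S) {a b : V} (ha : IsNull a) (hb : IsNull b)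
    (hab : GF.mdot a b = 1) (hl : LawAt Q S a b) {t : ℝ} (ht : 0 < t)
    (E : ModData (𝒜 (Ct a t)) (om Q)) (s : ℝ) (z : Completion D) :
    E.U s z = S a (-(1 / (2 * t))) (Ue Q (Real.exp (-(2 * Real.pi * s))) GF.one 0
      (S a (1 / (2 * t)) z)) := by
  have hU : UStmt Q A := ublock N.toRep
  rw [dil_S h ha, S_add h ha, N.modC_eq h ha hb hab ht]
  set m : ℝ := Real.exp (-(2 * Real.pi * s)) with hm
  have hm0 : 0 < m := Real.exp_pos _
  set c : ℝ := (1 - m) / (2 * t) with hc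
  have hmm : 1 + 2 * c * (-t) = m := by
    rw [hc]
    field_simp
    ring
  have hinv : Real.exp (2 * Real.pi * s) = m⁻¹ := by
    rw [hm, Real.exp_neg, inv_inv]
  have h1 := hl (-t) c (T.bq a b (-s)) (Ue Q 1 (T.bq a b s) 0 (Ue Q 1 GF.one (-(t • b)) z))
    (by rw [hmm]; exact hm0) (fun x => by
      rw [T.H732W.sim_bq, hmm]
      have e1 : Real.exp (-(2 * Real.pi * -s)) = m⁻¹ := by
        rw [← hinv]; congr 1; ring
      have e2 : Real.exp (2 * Real.pi * -s) = m := by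
        rw [hm]; congr 1; ring
      have e3 : 2 * c * (-t) = m - 1 := by linarith
      rw [e1, e2, e3])
  rw [hmm, neg_smul, neg_neg] at h1
  rw [h1]
  have e4 : -(1 / (2 * t)) + Real.exp (2 * Real.pi * s) * (1 / (2 * t)) = c / m := by
    rw [hinv, hc]
    field_simp
    ring
  rw [e4]
  congr 1
  rw [hU.mul 1 _ 0 1 _ _ _ one_pos one_pos (T.s_lor ha hb hab s) H496.isLor_one,
    hU.mul m _ _ _ _ _ _ hm0 (by norm_num) (T.s_lor ha hb hab (-s)) (by
      have e : (fun m => sim 1 (T.bq a b s) 0 (GF.one m)) = T.bq a b s := by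
        have := T.cm_apply GF.one (T.bq a b s)
        funext n k
        have h2 := this n k
        simp only [T.cm] at h2
        rw [h2]
        simp [GF.one, bas]
      rw [e]
      exact T.s_lor ha hb hab s)]
  have hinv2 : ∀ x, sim 1 (T.bq a b (-s)) 0 (sim 1 (T.bq a b s) 0 x) = x := by
    refine T.bst_inv ha hb hab ?_ ?_
    · rw [show -(2 * Real.pi * -s) = 2 * Real.pi * s by ring]
      have := T.exp_bq (2 * Real.pi * s)
      linarith
    · rw [show 2 * Real.pi * -s = -(2 * Real.pi * s) by ring]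
      have := T.exp_bq (-(2 * Real.pi * s))
      rw [neg_neg] at this
      linarith
  have e5 : (fun m => sim 1 (T.bq a b (-s)) 0 ((fun m => sim 1 (T.bq a b s) 0 (GF.one m)) m)) =
      GF.one := by
    funext n
    exact hinv2 (GF.one n)
  have e6 : sim m (T.bq a b (-s)) (-(-t * m) • b) (sim 1 (T.bq a b s) 0 (-(t • b))) = 0 := by
    have e7 : ∀ x y : V, sim m (T.bq a b (-s)) y x = y + m • sim 1 (T.bq a b (-s)) 0 x := by
      intro x y
      funext n
      simp [sim]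
    rw [e7, hinv2]
    module
  rw [e5, e6, mul_one, mul_one]

lemma hk_of (N : LNm Q A 𝒜) (h : Grp0 Q 𝒜 S) {a b : V} (ha : IsNull a) (hb : IsNull b)
    (hab : GF.mdot a b = 1) (hl : LawAt Q S a b) {t : ℝ} (ht : 0 < t)
    (E : ModData (𝒜 (Ct a t)) (om Q)) {d : ℝ} {B : Fld D} (hB : L.Fz Q d B) {f : Fn}
    (hf : In Fc f) (κ : ℝ →ᵇ ℂ) (hκ : HasCompactSupport κ) :
    E.Th κ (S a (-(1 / (2 * t)))
      ((Complex.exp (Complex.I * Real.pi * d) • B (L.rf f) Q.vac : D) : Completion D)) =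
    E.Th (ez κ hκ (1 / 2)) (S a (-(1 / (2 * t))) ((B f Q.vac : D) : Completion D)) := by
  have hU : UStmt Q A := ublock N.toRep
  obtain ⟨G, g1, g2, ⟨C, g3⟩, g4⟩ := (L.o N.toRep d B f hB).1 hf
  have hE : ∀ (s : ℝ) (v : D), E.U s (S a (-(1 / (2 * t))) (v : Completion D)) =
      S a (-(1 / (2 * t))) ((L.dD Q s v : D) : Completion D) := by
    intro s v
    rw [modC_law N h ha hb hab hl ht, S_add h ha, add_neg_cancel, h.zero a ha]
    show S a (-(1 / (2 * t))) (Ue Q _ GF.one 0 (v : Completion D)) = _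
    rw [hU.coe _ _ 0 _ (Real.exp_pos _) H496.isLor_one]
    rfl
  refine thx E (T.ct_of (G := fun z => S a (-(1 / (2 * t))) (G z)) ?_ ?_ ?_ fun s => ?_) κ hκ
  · exact (S a (-(1 / (2 * t)))).differentiable.comp_differentiableOn g1
  · exact (S a (-(1 / (2 * t)))).continuous.comp_continuousOn g2
  · refine ⟨‖S a (-(1 / (2 * t)))‖ * C, fun z hz => ?_⟩
    exact ((S a (-(1 / (2 * t)))).le_opNorm _).trans
      (mul_le_mul_of_nonneg_left (g3 z hz) (norm_nonneg _))
  · rw [hE, hE, (g4 s).1, (g4 s).2]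
    exact ⟨rfl, rfl⟩

lemma norm_pct (N : LNm Q A 𝒜) {k : ℕ} {Φ Ψ : (Fin k → Ix) → Fld D} (hΦ : T.Ten Q k Φ)
    (hΨ : T.Ten Q k Ψ) (hadj : H49.Adj Φ Ψ) (μ : Fin k → Ix) {f : Fn} (hf : H755.CS f) (d : ℝ) :
    ‖((Complex.exp (Complex.I * Real.pi * d) • Φ μ (L.rf f) Q.vac : D) : Completion D)‖ =
      ‖((Ψ μ (GF.bar f) Q.vac : D) : Completion D)‖ := by
  have hc : (fun ρ : Fin k → Ix => conj (if ρ = μ then (1 : ℂ) else 0)) =
      fun ρ => if ρ = μ then 1 else 0 := by
    funext ρ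
    split_ifs <;> simp
  have h3 := H49.pct N hΦ hΨ hadj (fun ρ => if ρ = μ then 1 else 0) hf.1 hf.2 hΦ hΨ hadj
    (fun ρ => if ρ = μ then 1 else 0) hf.1 hf.2
  rw [hc, op_single, op_single, ← two_mul, pow_mul, neg_one_sq, one_pow, one_mul,
    inner_self_eq_norm_sq_to_K, inner_self_eq_norm_sq_to_K] at h3
  have h4 : ‖Φ μ (L.rf f) Q.vac‖ ^ 2 = ‖Ψ μ (GF.bar f) Q.vac‖ ^ 2 := by exact_mod_cast h3
  have h5 := (pow_left_inj₀ (norm_nonneg _) (norm_nonneg _) (by norm_num)).1 h4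
  rw [Completion.norm_coe, Completion.norm_coe, norm_smul, h5, Complex.norm_exp]
  simp

/-- compact sets of the light cone lie in a cut light cone -/
lemma ex_cut (a : V) {K : Set V} (hK : IsCompact K) :
    ∃ t : ℝ, 0 < t ∧ ∀ s, t ≤ s → ∀ x ∈ K, GF.mdot a x < s := by
  obtain ⟨C, hC⟩ := hK.exists_bound_of_continuousOn (HM.H584.cont_md a).continuousOn
  refine ⟨|C| + 1, by positivity, fun s hs x hx => ?_⟩
  have h1 := hC x hx
  rw [Real.norm_eq_abs] at h1
  have h2 := le_abs_self (GF.mdot a x)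
  have h3 := le_abs_self C
  linarith

/-- **The law implies orthogonality**: if the null deformations `S a c` satisfy the relations of
the special conformal transformations with the translations (for one pair of null vectors), then
tensor fields `Φ` (rank `k`, dimension `d`) and `Φ'` (rank `k'`, dimension `d'`) are orthogonal in
the vacuum unless `d - k - (d' - k')` is an even integer. -/
theorem orth_of_law (N : LNm Q A 𝒜) (h : Grp0 Q 𝒜 S) {a b : V} (ha : IsNull a) (hb : IsNull b)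
    (hab : GF.mdot a b = 1) (hl : LawAt Q S a b) : Orth Q := by
  intro k d Φ μ f k' d' Φ' ν g hΦ hΦ' hf hg hne
  have h1 := (fz_td hΦ μ)
  have h2 := (fz_td hΦ' ν)
  refine zero_of_cs h1.fld h2.fld (fun f g hf hg => ?_) hf hg
  obtain ⟨y, hy⟩ := big_bk (hf.2.isCompact.union hg.2.isCompact)
  have hf1 : In Fc (L.rf (tr y f)) := in_rf (in_tr hy hf Set.subset_union_left)
  have hg1 : In Fc (L.rf (tr y g)) := in_rf (in_tr hy hg Set.subset_union_right)
  rw [inner_tr h1.fld h2.fld y hf.1 hg.1]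
  obtain ⟨Ψ, hΨ, hadj⟩ := T.adj_of N.toRep (ten_td hΦ)
  obtain ⟨Ψ', hΨ', hadj'⟩ := T.adj_of N.toRep (ten_td hΦ')
  have hc : ∀ {j : ℕ} (μ : Fin j → Ix), (fun ρ : Fin j → Ix => conj (if ρ = μ then (1 : ℂ) else 0))
      = fun ρ => if ρ = μ then 1 else 0 := by
    intro j μ
    funext ρ
    split_ifs <;> simp
  have h3 := H49.pct N (ten_td hΦ) hΨ hadj (fun ρ => if ρ = μ then 1 else 0) hf1.1 hf1.2.1
    (ten_td hΦ') hΨ' hadj' (fun ρ => if ρ = ν then 1 else 0) hg1.1 hg1.2.1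
  rw [hc, hc, op_single, op_single, op_single, op_single, rf_rf, rf_rf] at h3
  have h4 : inner ℂ ((Complex.exp (Complex.I * Real.pi * d) •
      Φ μ (L.rf (L.rf (tr y f))) Q.vac : D) : Completion D)
      ((Complex.exp (Complex.I * Real.pi * d') •
      Φ' ν (L.rf (L.rf (tr y g))) Q.vac : D) : Completion D) =
      inner ℂ ((Ψ' ν (GF.bar (L.rf (tr y g))) Q.vac : D) : Completion D)
        ((Ψ μ (GF.bar (L.rf (tr y f))) Q.vac : D) : Completion D) := by
    obtain ⟨t0, ht0, hcut⟩ := ex_cut a (hf1.2.1.isCompact.union hg1.2.1.isCompact)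
    have htt : ∀ n : ℕ, 0 < t0 + n := fun n => by positivity
    have hfn : ∀ n : ℕ, In (Ct a (t0 + n)) (L.rf (tr y f)) := fun n =>
      ⟨hf1.1, hf1.2.1, fun x hx => ⟨hf1.2.2 hx, hcut _ (by
        have := Nat.cast_nonneg (α := ℝ) n
        linarith) x (Or.inl hx)⟩⟩
    have hgn : ∀ n : ℕ, In (Ct a (t0 + n)) (L.rf (tr y g)) := fun n =>
      ⟨hg1.1, hg1.2.1, fun x hx => ⟨hg1.2.2 hx, hcut _ (by
        have := Nat.cast_nonneg (α := ℝ) n
        linarith) x (Or.inr hx)⟩⟩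
    set E : ∀ n : ℕ, ModData (𝒜 (Ct a (t0 + n))) (om Q) := fun n =>
      Classical.choice (N.modC ha hb hab (htt n)) with hE
    set W : ℕ → Completion D ≃ₗᵢ[ℂ] Completion D := fun n =>
      sW h ha (1 / (2 * (t0 + (0 : ℕ))) - 1 / (2 * (t0 + n))) with hW
    set W' : Completion D ≃ₗᵢ[ℂ] Completion D := sW h ha (1 / (2 * (t0 + (0 : ℕ)))) with hW'
    refine gram E W W' (fun n s z => ?_) (fun z => ?_)
      (x := ((Φ μ (L.rf (tr y f)) Q.vac : D) : Completion D))
      (x1 := ((Φ' ν (L.rf (tr y g)) Q.vac : D) : Completion D)) (fun n => ?_) (fun κ hκ => ?_)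
      (norm_pct N (ten_td hΦ) hΨ hadj μ ⟨hf1.1, hf1.2.1⟩ d) (fun n => ?_) (fun κ hκ => ?_)
      (norm_pct N (ten_td hΦ') hΨ' hadj' ν ⟨hg1.1, hg1.2.1⟩ d')
    · rw [hW, sW_apply, sW_apply, modC_law N h ha hb hab hl (htt 0) (E 0),
        modC_law N h ha hb hab hl (htt n) (E n), S_add h ha, S_add h ha]
      congr 3
      · ring
      · ring
    · simp only [hW, hW', sW_symm]
      refine ((h.cont a z ha).tendsto _).comp ?_
      have e1 : Tendsto (fun n : ℕ => 2 * (t0 + (n : ℝ))) atTop atTop :=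
        (tendsto_atTop_add_const_left _ t0 tendsto_natCast_atTop_atTop).const_mul_atTop two_pos
      have e2 := e1.inv_tendsto_atTop
      have e3 := (e2.const_sub (1 / (2 * (t0 + ((0 : ℕ) : ℝ))))).neg
      rw [sub_zero] at e3
      refine e3.congr fun n => ?_
      simp [one_div]
    · exact (T.m (𝒜 (Ct a (t0 + n))) Q.vac (E n) (Φ μ (L.rf (tr y f)))
        (Ψ μ (GF.bar (L.rf (tr y f))))).1
        (T.afs_of (fun v w => adj_comp hadj μ _ v w hf1.1) (N.fld _ _ _ (hΦ.1 μ) (hfn n)))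
    · exact hk_of N h ha hb hab hl (htt 0) (E 0) h1 hf1 κ hκ
    · exact (T.m (𝒜 (Ct a (t0 + n))) Q.vac (E n) (Φ' ν (L.rf (tr y g)))
        (Ψ' ν (GF.bar (L.rf (tr y g))))).1
        (T.afs_of (fun v w => adj_comp hadj' ν _ v w hg1.1) (N.fld _ _ _ (hΦ'.1 ν) (hgn n)))
    · exact hk_of N h ha hb hab hl (htt 0) (E 0) h2 hg1 κ hκ
  rw [Completion.inner_coe, Completion.inner_coe, inner_smul_left, inner_smul_right, rf_rf,
    rf_rf] at h4
  rw [← h4] at h3
  set X : ℂ := inner ℂ (Φ μ (tr y f) Q.vac) (Φ' ν (tr y g) Q.vac) with hX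
  by_contra hX0
  have e1 : ∀ (d : ℝ) (k : ℕ), Complex.exp (Complex.I * Real.pi * (d - k)) =
      Complex.exp (Complex.I * Real.pi * d) * (-1) ^ k := by
    intro d k
    have e2 : Complex.I * Real.pi * (d - k) = Complex.I * Real.pi * d +
        (k : ℂ) * (-(Real.pi * Complex.I)) := by ring
    rw [e2, Complex.exp_add, Complex.exp_nat_mul, Complex.exp_neg, Complex.exp_pi_mul_I]
    norm_num
  have e3 : conj (Complex.exp (Complex.I * Real.pi * d)) *
      Complex.exp (Complex.I * Real.pi * d) = 1 := by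
    rw [mul_comm, Complex.mul_conj, Complex.normSq_eq_norm_sq, Complex.norm_exp]
    simp
  have e4 : conj (Complex.exp (Complex.I * Real.pi * d)) *
      Complex.exp (Complex.I * Real.pi * d') = (-1 : ℂ) ^ (k + k') := by
    apply mul_right_cancel₀ hX0
    rw [h3]
    ring
  have e5 : (-1 : ℂ) ^ (k + k') * (-1) ^ k' = (-1) ^ k := by
    rw [pow_add, mul_assoc, ← mul_pow]
    norm_num
  have e6 : Complex.exp (Complex.I * Real.pi * (d - k)) =
      Complex.exp (Complex.I * Real.pi * (d' - k')) := by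
    rw [e1, e1]
    linear_combination (-Complex.exp (Complex.I * Real.pi * d)) * e5 +
      (Complex.exp (Complex.I * Real.pi * d') * (-1) ^ k') * e3 -
      (Complex.exp (Complex.I * Real.pi * d) * (-1) ^ k') * e4
  obtain ⟨n, hn⟩ := Complex.exp_eq_exp_iff_exists_int.1 e6
  apply hne n
  have hpi : (Complex.I * Real.pi : ℂ) ≠ 0 :=
    mul_ne_zero Complex.I_ne_zero (by exact_mod_cast Real.pi_ne_zero)
  have e7 : ((d : ℂ) - k - (d' - k')) = 2 * n := by
    apply mul_left_cancel₀ hpi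
    linear_combination hn
  exact_mod_cast e7

end Vale.Agent.P352.BW.H870

end
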