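import Vale.Agent.P352.BW.H870.LawOr
import Vale.Agent.P352.BW.LzDefs

/-!
# P352 BW (helper870): `Law` implies `Orth`, in the letters of `LzDefs`
-/

set_option linter.all false

noncomputable section

open UniformSpace (Completion)

namespace Vale.Agent.P352.BW.H870

open GF
open Vale.Agent.P352.BW

variable {D : Type*} [NormedAddCommGroup D] [InnerProductSpace ℂ D] {Q : Theory D}
  {A : (V → V) → D → D} {𝒜 : Set V → VonNeumannAlgebra (Completion D)}
  {S : V → ℝ → Completion D →L[ℂ] Completion D}

/-- **The law implies orthogonality** -/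
theorem orth_law (N : LNm Q A 𝒜) (h : Grp0 Q 𝒜 S) (hL : Law Q S) : Orth Q :=
  orth_of_law N h H49.null_a0 H49.null_b0 H49.dot_ab fun t c L z hp hx =>
    hL H49.a0 H49.b0 t c L z H49.null_a0 H49.null_b0 H49.dot_ab hp hx

end Vale.Agent.P352.BW.H870

end
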